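import Vale.Agent.P287D.Cb.Mov
import Vale.Agent.P287D.Gm.Ffs

/-!
# P287D: the derivation which moves a generic divisor
-/

open Set
open Vale.Agent.P285N.Brep (jac Fr)
open Vale.Agent.P297Z Vale.Agent.P287D.Cb

noncomputable section

namespace Vale.Agent.P287D.Pe

variable {K K' : Type} [Field K] [Algebra ℂ K] [Field K'] [Algebra ℂ K'] {φ : K →+* K'} {n : ℕ}

theorem ind_ext (h : Ext ⊥ φ) {ι : Type} {y : ι → K} (hy : AlgebraicIndependent ℂ y) :
    AlgebraicIndependent ℂ fun i => φ (y i) :=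
  Pb.dis_alg h (hy.ringHom_of_comp_eq (algebraMap ℂ (⊥ : IntermediateField ℂ K)) (RingHom.id K)
    (IntermediateField.botEquiv ℂ K).symm.surjective Function.injective_id (RingHom.ext fun _ => rfl))

/-- derivations of the constants extend to derivations which kill the small field -/
theorem ext_der (h : Ext ⊥ φ) (hK : FF K n) (hK' : FF K' n) {σ : ℂ →+* ℂ}
    (hσ : ∀ c, algebraMap ℂ K' (σ c) = φ (algebraMap ℂ K c)) {δ : ℂ → ℂ} (hδ : De δ)
    (h0 : ∀ c, δ (σ c) = 0) : ∃ D : K' → K', De D ∧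
      (∀ c, D (algebraMap ℂ K' c) = algebraMap ℂ K' (δ c)) ∧ ∀ a, D (φ a) = 0 := by
  let k := σ.fieldRange
  obtain ⟨ι, x, hx⟩ := exists_isTranscendenceBasis' k ℂ
  obtain ⟨y, hy, -⟩ := id hK
  obtain ⟨E, hE⟩ := fr_of hK hy
  obtain ⟨D, hD⟩ := P297.H927.exists_derivation_of_basis
    (hx.sumElim_comp (hK'.basis (ind_ext h hy))) (Sum.elim 0 fun b => algebraMap ℂ K' (δ (x b)))
  have a : Dr (algebraMap ℂ K') fun c => algebraMap ℂ K' (δ c) :=
    ⟨fun a b => by rw [hδ.add, map_add], fun a b => by simp [hδ.mul]⟩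
  refine ⟨D, de_of D, fun c => sub_eq_zero.1 ((((de_of D).comp (algebraMap ℂ K')).sub a).kill'
    (k := k) (fun c => ?_) (s := range x) ?_ (hx.isAlgebraic.isAlgebraic c)), fun c => ?_⟩
  · obtain ⟨_, c, rfl⟩ := c
    rw [← IsScalarTower.algebraMap_apply, Derivation.map_algebraMap]
    exact sub_eq_zero.2 ((map_zero _).symm.trans (congrArg _ (h0 c).symm))
  · rintro _ ⟨b, rfl⟩
    exact sub_eq_zero.2 (hD (.inr b))
  · refine (expand ((de_of D).comp φ) (fun c => ?_) hE c).trans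
      (Finset.sum_eq_zero fun j _ => mul_eq_zero_of_left (hD (.inl j)) _)
    exact hσ c ▸ D.map_algebraMap (⟨σ c, c, rfl⟩ : k)

/-- **DER**: a generic divisor moves -/
theorem exists_der (h : Ext ⊥ φ) (hK : FF K (n + 1)) (hK' : FF K' (n + 1)) {P : Pl K'}
    (t : Trv φ P) : ∃ D : K' → K', De D ∧ Pc D ∧ (∀ a, D (φ a) = 0) ∧ ¬ Lg P D := by
  by_contra hn
  push Not at hn
  have hc : Cst φ := fun c => h.cst _ (IntermediateField.algebraMap_mem ⊥ c)
  obtain ⟨σ, hσ⟩ := hc.exists_cst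
  let ψ : K →+* P.κ := (Gm.rdA P).comp (φ.codRestrict P.ring t)
  have eψ : ∀ a, ψ a = P.rd (φ a) := fun a => (rd_of (t a)).symm
  have hψ : ∀ c, algebraMap ℂ P.κ (σ c) = ψ (algebraMap ℂ K c) := fun c => by
    rw [eψ, ← hσ, rd_const]
  have hκ := Gm.ff_κ P hK'
  obtain ⟨y, hy, -⟩ := id hK
  obtain ⟨z, hz, -⟩ := id hκ
  obtain ⟨F, hF⟩ := fr_of hκ hz
  have := finrank_le_of_span_eq_top (R := P.κ) (v := fun i j => F i (ψ (y j))) (eq_top_iff.2
    ((sep hκ (fun c => ⟨_, hψ c⟩) hy).ge.trans (Submodule.span_le.2 ?_)))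
  · simp at this
  rintro _ ⟨d, a, b, c, rfl⟩
  choose δ hδ using b
  have i := (algebraMap ℂ P.κ).injective
  obtain ⟨D, d1, d2, d3⟩ := ext_der h hK hK' hσ (δ := δ)
    ⟨fun u v => i (by rw [map_add, hδ, hδ, hδ, map_add, a.add]),
      fun u v => i (by simp only [map_add, map_mul, hδ, a.mul, RingHom.id_apply])⟩
    fun u => i (by rw [hδ, hψ, c, map_zero])
  obtain ⟨e, e1, e2⟩ := (hn D d1 (fun u => ⟨_, (d2 u).symm⟩) d3).bar d1
  refine (Submodule.mem_span_range_iff_exists_fun _).2 ⟨fun i => d (z i) - e (z i), funext fun j => ?_⟩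
  have := expand (a.sub e1) (fun u => by
    rw [← hδ, ← rd_const u, e2 _ (P.con u), d2, rd_const, sub_self]) hF (ψ (y j))
  rw [eψ, e2 _ (t _), d3, ← map_zero φ, ← eψ, ← eψ, map_zero, sub_zero] at this
  simp [this]

end Vale.Agent.P287D.Pe
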