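import Vale.Agent.P287D.Iso.Bas
import Vale.Agent.P287D.Gf.One
import Vale.Agent.P287D.Va.Cone

/-!
# P287D: an extension of the constants is a conjugation
-/

open Set Cardinal MvPolynomial

noncomputable section

namespace Vale.Agent.P287D.Pe

theorem ext_alg (R K L : Type) [CommRing R] [Nontrivial R] [Countable R] [Field K] [Field L]
    [IsAlgClosed K] [IsAlgClosed L] [Algebra R K] [Algebra R L] [FaithfulSMul R K]
    [FaithfulSMul R L] (hK : ℵ₀ < #K) (h : #K = #L) :
    ∃ φ : K ≃+* L, ∀ r, φ (algebraMap R K r) = algebraMap R L r := by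
  obtain ⟨s, hs⟩ := exists_isTranscendenceBasis R K
  obtain ⟨t, ht⟩ := exists_isTranscendenceBasis R L
  have h1 := IsAlgClosed.cardinal_eq_cardinal_transcendence_basis_of_aleph0_lt' _ hs
    mk_le_aleph0 hK
  have h2 := IsAlgClosed.cardinal_eq_cardinal_transcendence_basis_of_aleph0_lt' _ ht
    mk_le_aleph0 (h ▸ hK)
  obtain ⟨e⟩ := Cardinal.eq.1 (h1.symm.trans (h.trans h2))
  have := IsAlgClosed.isAlgClosure_of_transcendence_basis _ hs
  have := IsAlgClosed.isAlgClosure_of_transcendence_basis _ ht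
  let ψ := hs.1.aevalEquiv.symm.trans ((renameEquiv R e).trans ht.1.aevalEquiv)
  refine ⟨IsAlgClosure.equivOfEquiv K L ψ.toRingEquiv, fun r => ?_⟩
  rw [IsScalarTower.algebraMap_apply R (Algebra.adjoin R (Set.range ((↑) : s → K))) K,
    IsAlgClosure.equivOfEquiv_algebraMap,
    IsScalarTower.algebraMap_apply R (Algebra.adjoin R (Set.range ((↑) : t → L))) L]
  exact congrArg _ (ψ.commutes r)

/-- two embeddings agree on a finite set up to an automorphism -/
theorem aut_fin {L : Type} [Field L] (σ ρ : L →+* ℂ) {F : Set L} (hF : F.Finite) :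
    ∃ τ : ℂ ≃+* ℂ, ∀ c ∈ F, τ (σ c) = ρ c := by
  let k := Subfield.closure F
  have : Countable k := mk_le_aleph0_iff.1
    ((Subfield.cardinalMk_closure_le_max F).trans (max_le hF.lt_aleph0.le le_rfl))
  obtain ⟨τ, h⟩ := @ext_alg k ℂ ℂ _ _ _ _ _ _ _ (σ.comp k.subtype).toAlgebra
    (ρ.comp k.subtype).toAlgebra
    (letI := (σ.comp k.subtype).toAlgebra
     (faithfulSMul_iff_algebraMap_injective _ ℂ).2 (σ.comp k.subtype).injective)
    (letI := (ρ.comp k.subtype).toAlgebra
     (faithfulSMul_iff_algebraMap_injective _ ℂ).2 (ρ.comp k.subtype).injective)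
    (by rw [mk_complex]; exact aleph0_lt_continuum) rfl
  exact ⟨τ, fun c hc => h ⟨c, Subfield.subset_closure hc⟩⟩

section be

variable {L K C K' : Type} [Field L] [Field K] [Field C] [Field K'] [Algebra L K] [Algebra L C]
  [Algebra K K'] [Algebra C K'] [Algebra L K'] [IsScalarTower L K K'] [IsScalarTower L C K']

/-- linear disjointness is symmetric -/
theorem sym (h : Gf.BE L K C K') {J : Type} {b : J → C} (hb : LinearIndependent L b)
    (s : Finset J) (v : J → K) (e : ∑ j ∈ s, b j • algebraMap K K' (v j) = 0) :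
    ∀ j ∈ s, v j = 0 := by
  let w := Module.Basis.ofVectorSpace L K
  have hw := linearIndependent_iff.1 (h.dis' w.linearIndependent)
  let ρ : K →ₗ[L] (_ →₀ C) :=
    Finsupp.mapRange.linearMap (Algebra.linearMap L C) ∘ₗ w.repr.toLinearMap
  have k : ∀ x, Finsupp.linearCombination C (fun i => algebraMap K K' (w i)) (ρ x) =
      algebraMap K K' x := fun x => by
    have : (Finsupp.linearCombination C fun i => algebraMap K K' (w i)).restrictScalars L ∘ₗ ρ =
        (IsScalarTower.toAlgHom L K K').toLinearMap := w.ext fun i => by simp [ρ]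
    exact LinearMap.congr_fun this x
  have z := hw (∑ j ∈ s, b j • ρ (v j)) (by simpa only [map_sum, map_smul, k] using e)
  intro j hj
  refine w.repr.injective (Finsupp.ext fun i => ?_)
  have q := DFunLike.congr_fun z i
  rw [Finsupp.finsetSum_apply] at q
  rw [map_zero]
  refine linearIndependent_iff'.1 hb s (fun j => w.repr (v j) i) ?_ j hj
  refine Eq.trans (Finset.sum_congr rfl fun j _ => ?_) q
  simp [ρ, Algebra.smul_def, mul_comm]

theorem dec {J : Type} (ι : Type) (b : Module.Basis J L C) (p : MvPolynomial ι C) :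
    ∃ q : J →₀ MvPolynomial ι L, p = q.sum fun j r => b j • map (algebraMap L C) r := by
  induction p using MvPolynomial.induction_on' with
  | monomial m c =>
    refine ⟨(b.repr c).mapRange (monomial m) (map_zero _), ?_⟩
    rw [Finsupp.sum_mapRange_index (by simp)]
    conv_lhs => rw [← b.linearCombination_repr c, Finsupp.linearCombination_apply, map_finsuppSum]
    refine Finsupp.sum_congr fun j _ => ?_
    rw [map_monomial, smul_monomial, Algebra.smul_def, smul_eq_mul, mul_comm]
  | add p p' h h' =>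
    obtain ⟨q, rfl⟩ := h
    obtain ⟨q', rfl⟩ := h'
    exact ⟨q + q', (Finsupp.sum_add_index' (by simp) (by simp [smul_add])).symm⟩

/-- the relations are generated by the relations over the small field -/
theorem ker_le (h : Gf.BE L K C K') {ι : Type} (x : ι → K) (p : MvPolynomial ι C)
    (hp : aeval (fun i => algebraMap K K' (x i)) p = 0) :
    p ∈ (RingHom.ker (aeval x : MvPolynomial ι L →ₐ[L] K)).map (map (algebraMap L C)) := by
  let b := Module.Basis.ofVectorSpace L C
  obtain ⟨q, rfl⟩ := dec ι b p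
  have z := sym h b.linearIndependent q.support (fun j => aeval x (q j)) (by
    rw [← hp, Finsupp.sum, map_sum]
    refine Finset.sum_congr rfl fun j _ => ?_
    rw [map_smul, aeval_map_algebraMap, ← aeval_algebraMap_apply]
    rfl)
  refine Ideal.sum_mem _ fun j hj => ?_
  simp only [Algebra.smul_def]
  exact Ideal.mul_mem_left _ _ (Ideal.mem_map_of_mem _ (z j hj))

end be

/-- a homomorphism of fields from two evaluations with the same kernel -/
theorem hom_of {A F F' : Type} [CommRing A] [Field F] [Field F'] (e : A →+* F) (g : A →+* F')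
    (h : ∀ a, e a = 0 ↔ g a = 0) (he : Subfield.closure (range e) = ⊤) :
    ∃ Θ : F →+* F', ∀ a, Θ (e a) = g a := by
  let _ := e.kerLift.toAlgebra
  let g' : A ⧸ RingHom.ker e →+* F' := Ideal.Quotient.lift _ g fun a ha => (h a).1 ha
  have hg : Function.Injective g' :=
    RingHom.lift_injective_of_ker_le_ideal _ _ fun a ha => (h a).2 ha
  have : FaithfulSMul (A ⧸ RingHom.ker e) F :=
    (faithfulSMul_iff_algebraMap_injective _ F).2 e.kerLift_injective
  have : IsFractionRing (A ⧸ RingHom.ker e) F := IsFractionRing.of_field _ F fun z => by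
    obtain ⟨a, ha, c, hc, rfl⟩ := Subfield.mem_closure_iff.1 (he ▸ Subfield.mem_top z)
    rw [← RingHom.coe_range, Subring.closure_eq] at ha hc
    obtain ⟨a, rfl⟩ := ha
    obtain ⟨c, rfl⟩ := hc
    exact ⟨Ideal.Quotient.mk _ a, Ideal.Quotient.mk _ c, rfl⟩
  exact ⟨IsFractionRing.lift hg, fun a => IsFractionRing.lift_algebraMap hg (Ideal.Quotient.mk _ a)⟩

variable {K K' : Type} [Field K] [Algebra ℂ K] [Field K'] [Algebra ℂ K'] {φ : K →+* K'} {n : ℕ}

theorem exists_gen (hK : FF K n) {T : Set K} (hT : T.Finite) :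
    ∃ s : Finset K, T ⊆ s ∧ Subfield.closure (range (algebraMap ℂ K) ∪ s) = ⊤ := by
  classical
  obtain ⟨y, -, f⟩ := hK
  have a := IntermediateField.fg_adjoin_of_finite (F := ℂ) (finite_range y)
  have := IntermediateField.essFiniteType_iff.2 a
  have : Algebra.EssFiniteType ℂ K := .comp ℂ (IntermediateField.adjoin ℂ (range y)) K
  obtain ⟨s, hs⟩ := IntermediateField.fg_top_iff.2 this
  refine ⟨s ∪ hT.toFinset, by simp, eq_top_iff.2 ?_⟩
  have := congrArg IntermediateField.toSubfield hs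
  rw [IntermediateField.adjoin_toSubfield, IntermediateField.top_toSubfield] at this
  exact this.ge.trans (Subfield.closure_mono (union_subset_union_right _ (by simp)))

/-- **RET** -/
theorem ret (h : Ext ⊥ φ) (hK : FF K n) {T : Set K} (hT : T.Finite) :
    ∃ Θ : K' →+* K, Semi Θ ∧ ∀ a ∈ T, Θ (φ a) = a := by
  classical
  obtain ⟨s, hs, gen⟩ := exists_gen hK hT
  let L : IntermediateField ℂ K := ⊥
  let ρ : L →+* ℂ := (IntermediateField.botEquiv ℂ K).toRingHom
  have hρ : ∀ a : L, algebraMap ℂ K (ρ a) = a := fun a => by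
    obtain ⟨c, rfl⟩ := (IntermediateField.botEquiv ℂ K).symm.surjective a
    exact congrArg _ ((IntermediateField.botEquiv ℂ K).apply_symm_apply c)
  refine h.elim fun eφ b => ?_
  let x : s → K := Subtype.val
  obtain ⟨S, hS⟩ := IsNoetherian.noetherian (RingHom.ker (aeval x : MvPolynomial s L →ₐ[L] K))
  obtain ⟨τ, hτ⟩ := aut_fin (algebraMap L ℂ) ρ
    (F := ⋃ q ∈ S, (coeffs q : Set L)) (S.finite_toSet.biUnion fun q _ => Finset.finite_toSet _)
  let e : MvPolynomial s ℂ →+* K' := (aeval fun i => algebraMap K K' (x i)).toRingHom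
  let g₀ : MvPolynomial s ℂ →+* K := (aeval x).toRingHom
  let g := g₀.comp (map (τ : ℂ →+* ℂ))
  have e1 : ∀ q, e (map (algebraMap L ℂ) q) = algebraMap K K' (aeval x q) := fun q => by
    simp only [e, AlgHom.toRingHom_eq_coe, RingHom.coe_coe]
    rw [aeval_map_algebraMap, ← aeval_algebraMap_apply]
    rfl
  have e2 : ∀ q, g₀ (map ρ q) = aeval x q := fun q => by
    simp only [g₀, AlgHom.toRingHom_eq_coe, RingHom.coe_coe, aeval_def, eval₂_map]
    congr 1
    exact RingHom.ext hρ
  have e3 : ∀ q ∈ S, map (τ : ℂ →+* ℂ) (map (algebraMap L ℂ) q) = map ρ q := fun q hq => by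
    ext m
    rw [coeff_map, coeff_map, coeff_map]
    by_cases z : coeff m q = 0
    · simp [z]
    · exact hτ _ (mem_biUnion hq (Finset.mem_coe.2 (coeff_mem_coeffs m z)))
  have m0 : ∀ q ∈ S, aeval x q = 0 := fun q hq =>
    (hS.le (Submodule.subset_span hq) : q ∈ RingHom.ker _)
  refine (hom_of e g (fun p => ⟨fun z => ?_, fun z => ?_⟩) ?_).elim fun Θ hΘ => ?_
  rotate_right
  · have c : ∀ c, Θ (algebraMap ℂ K' c) = algebraMap ℂ K (τ c) := fun c => by
      simpa [e, g, g₀] using hΘ (C c)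
    have d : ∀ a ∈ s, Θ (φ a) = a := fun a ha => by
      simpa [e, g, g₀, x, eφ] using hΘ (X ⟨a, ha⟩)
    refine ⟨Θ, ⟨RingHom.fieldRange_eq_top_iff.1 (eq_top_iff.2 (gen.ge.trans
      (Subfield.closure_le.2 ?_))), fun a => ⟨_, (c a).symm⟩, fun a => ⟨τ.symm a, by simp [c]⟩⟩,
      fun a ha => d a (hs ha)⟩
    · rintro _ (⟨a, rfl⟩ | ha)
      · exact ⟨algebraMap ℂ K' (τ.symm a), by simp [c]⟩
      · exact ⟨_, d _ ha⟩
  · have := ker_le b x p z
    rw [← hS, Ideal.submodule_span_eq, Ideal.map_span] at this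
    refine (Ideal.span_le.2 ?_ : _ ≤ RingHom.ker g) this
    rintro _ ⟨q, hq, rfl⟩
    exact (congrArg g₀ (e3 q hq)).trans ((e2 q).trans (m0 q hq))
  · obtain ⟨q, hq⟩ := map_surjective ρ (IntermediateField.botEquiv ℂ K).surjective
      (map (τ : ℂ →+* ℂ) p)
    have k : q ∈ RingHom.ker (aeval x : MvPolynomial s L →ₐ[L] K) :=
      (e2 q).symm.trans ((congrArg g₀ hq).trans z)
    let u := e.comp ((map (τ.symm : ℂ →+* ℂ)).comp (map ρ))
    have v : ∀ r, map (τ.symm : ℂ →+* ℂ) (map (τ : ℂ →+* ℂ) r) = (r : MvPolynomial s ℂ) :=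
      fun r => by rw [map_map]; simp [map_id]
    rw [← hS] at k
    have w : u q = 0 := by
      refine (Ideal.span_le.2 ?_ : _ ≤ RingHom.ker u) k
      intro r hr
      change e (map _ (map ρ r)) = 0
      rw [← e3 r hr, v, e1, m0 r hr, map_zero]
    rw [← v p, ← hq]
    exact w
  · refine eq_top_iff.2 (b.gen.ge.trans (Subfield.closure_le.2 ?_))
    rintro _ (⟨a, rfl⟩ | ⟨c, rfl⟩)
    · have : a ∈ (Subfield.closure (range e)).comap (algebraMap K K') := by
        refine (Subfield.closure_le.2 ?_) (gen.ge (Subfield.mem_top a))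
        rintro _ (⟨c, rfl⟩ | ha)
        · exact Subfield.subset_closure ⟨_, (e1 (C (algebraMap ℂ L c))).trans (by simp)⟩
        · exact Subfield.subset_closure ⟨X ⟨_, ha⟩, by simp [e, x]⟩
      exact this
    · exact Subfield.subset_closure ⟨C c, by simp [e]⟩

theorem exists_fin {B : Set (BD K)} (hB : B.Finite) (hc : B ⊆ Car K) : ∃ T : Set K, T.Finite ∧
    ∀ ψ : K →+* K, Ok ψ → (∀ a ∈ T, ψ a = a) → ∀ β ∈ B, pb ψ β = β := by
  classical
  choose! l hl using fun β (h : β ∈ B) => mem_Car.1 (hc h)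
  refine ⟨⋃ β ∈ B, ⋃ s ∈ (l β).support, s, hB.biUnion fun β _ => (Finset.finite_toSet _).biUnion
    fun s _ => s.finite_toSet, fun ψ o h β hβ => ?_⟩
  rw [hl β hβ, o.pb_cmb]
  refine congrArg _ ((Finsupp.mapDomain_congr fun s hs => ?_).trans Finsupp.mapDomain_id)
  have k : ∀ a ∈ s, ψ a = a := fun a ha => h a (mem_biUnion hβ (mem_biUnion hs ha))
  ext a
  rw [Pb.mem_im]
  exact ⟨fun ⟨f, m, e⟩ => e ▸ (k f m).symm ▸ m, fun m => ⟨a, m, k a m⟩⟩

/-- **RET** for b-divisors: `pb φ β` is a conjugate of `β` -/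
theorem ret_pb (h : Ext ⊥ φ) (hK : FF K n) (hK' : FF K' n) {T : Set K} (hT : T.Finite)
    {B : Set (BD K)} (hB : B.Finite) (hc : B ⊆ Car K) :
    ∃ Θ : K' →+* K, Semi Θ ∧ (∀ a ∈ T, Θ (φ a) = a) ∧ ∀ β ∈ B, pb Θ (pb φ β) = β := by
  obtain ⟨U, hU, k⟩ := exists_fin hB hc
  obtain ⟨Θ, s, e⟩ := ret h hK (hT.union hU)
  refine ⟨Θ, s, fun a m => e a (.inl m), fun β m => ?_⟩
  rw [← s.ok.pb_comp]
  exact k _ (s.ok.comp (h.ok hK')) (fun a m => e a (.inr m)) β m

/-- the sections come from the small field -/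
theorem H0_pb (h : Ext ⊥ φ) (hK : FF K n) (hK' : FF K' n) {β : BD K} (hβ : β ∈ Car K)
    [Module.Finite ℂ (H0 β)] : H0 (pb φ β) = Submodule.span ℂ (φ '' H0 β) := by
  obtain ⟨Θ, s, -, e⟩ := ret_pb h hK hK' finite_empty (finite_singleton β)
    (singleton_subset_iff.2 hβ)
  have e := e β rfl
  have f : Module.Finite ℂ (H0 (pb φ β)) := (s.finite_H0 _).1 (e.symm ▸ inferInstance)
  have r : h0 β = h0 (pb φ β) := (congrArg h0 e).symm.trans (s.h0 _)
  have le : Submodule.span ℂ (φ '' H0 β) ≤ H0 (pb φ β) := Submodule.span_le.2 (by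
    rintro _ ⟨a, m, rfl⟩
    exact mem_H0.2 ((h.ok hK').sec (mem_H0.1 m)))
  refine (Submodule.eq_of_le_of_finrank_le le ?_).symm
  let w := Module.finBasis ℂ (H0 β)
  have i : LinearIndependent (⊥ : IntermediateField ℂ K) fun i => (w i : K) := by
    refine (w.linearIndependent.map' (H0 β).subtype (Submodule.ker_subtype _)).map_of_surjective_injective
      (algebraMap ℂ (⊥ : IntermediateField ℂ K)).toZeroHom (AddMonoidHom.id K)
      (IntermediateField.botEquiv ℂ K).symm.surjective (fun _ a => a) fun c m => ?_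
    simp
  have := Module.Finite.of_injective (Submodule.inclusion le) (Submodule.inclusion_injective le)
  have j := (h.dis _ _ i)
  rw [← h0, ← r, h0, ← Fintype.card_fin (Module.finrank ℂ (H0 β)), ← finrank_span_eq_card j]
  refine Submodule.finrank_mono (Submodule.span_mono ?_)
  rintro _ ⟨i, rfl⟩
  exact ⟨_, (w i).2, rfl⟩

end Vale.Agent.P287D.Pe
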