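import Vale.Agent.P287D.Pe.Ret
import Vale.Agent.P287D.Pe.Der
import Vale.Agent.P287D.Tg.Dich
import Vale.Agent.P287D.Tg.Up
import Vale.Agent.P287D.Ku.Uk
import Vale.Agent.P287D.Pr.Neg
import Vale.Agent.P287D.Ba.Hy

/-!
# P287D: a moving prime divisor of a variety of Fano type moves in a pencil
-/

open Set
open Vale.Agent.P297Z Vale.Agent.P287D.Cb

noncomputable section

namespace Vale.Agent.P287D.Pe

variable {K K' : Type} [Field K] [Algebra ℂ K] [Field K'] [Algebra ℂ K'] {n : ℕ}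

open Ba in
/-- a smooth model -/
theorem smo (hK : FF K (n + 1)) {N : BD K} (hN : N ∈ Car K) : ∃ s : Finset K, Big (mx s) ∧
    Dsc (mx s) N ∧ ∀ P, On n (mx s) P → ∃ (β : BD K) (m : ℕ) (u : Finset K), Nz u ∧
      Hull n (mx s) P.δ β ∧ mx u = (m : ℝ) • mx s - β := by
  obtain ⟨M, D, hM, -, rfl, -⟩ := com1 hK hN
  obtain ⟨H, s, d, e, b⟩ := exists_pol hM
  refine ⟨s, b, e ▸ Md.dsc_bar hM d.dv d.amp D, fun P o => ?_⟩
  rw [e] at o ⊢
  obtain ⟨m, hm⟩ := (hpos hM).gg H (-Finsupp.single P.toPlace 1) d.amp d.int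
    (P277Z.FI.IsInt.neg (P277Z.FI.IsInt.single _))
  obtain ⟨u, hu⟩ := mx_of_free hM (hm m le_rfl)
  obtain ⟨w, w0, hw⟩ := exists_nz u
  refine ⟨_, m, w, w0, Md.hull_trc hM d.dv d.amp (trc_δ (pr_of_on hM o)), ?_⟩
  rw [hw, hu, map_add, map_neg, map_smul, neg_add_eq_sub]

variable {P : Pl K} {D : K → K}

theorem rg_pi (hK : FF K (n + 1)) (h : De D) (hc : Pc D) {S : Set K} (hS : Sp P S)
    (h1 : ∀ s ∈ S, D s ∈ P.ring) {π : K} (o : P.ord π = 1) (h3 : D π ∈ P.ring) : Rg P D := by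
  have π0 : π ≠ 0 := fun e => by simp [e] at o
  have h2 : ∀ c, D (algebraMap ℂ K c) ∈ P.ring := fun c => (hc c).elim fun c e => e ▸ P.con c
  obtain ⟨c, r⟩ : ∃ c : ℕ, Rg P fun x => P.t ^ c * D x := by
    obtain ⟨E, l⟩ := lift_lg hK P h hc
    obtain ⟨t, F, a⟩ := exists_ad hK P
    obtain ⟨c, k⟩ := exists_pow P fun j => E (t j)
    refine ⟨c, fun x hx => ?_⟩
    have := add_mem (mul_mem (pow_mem (t_mem P) c) (l.rg (h.sub (dr_of E)) x hx))
      (sum_mem fun j (_ : j ∈ Finset.univ) => mul_mem (k j) (a.pre j x hx))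
    simp only [mul_assoc] at this
    rwa [← Finset.mul_sum, ← mul_add, show ∑ j, E (t j) * F j x = E x from
      (expand (dr_of E) (Derivation.map_algebraMap E) a.fr x).symm, sub_add_cancel] at this
  induction c with
  | zero => simpa using r
  | succ c ih =>
    have e : ∀ z ∈ P.ring, Mx P (P.t ^ (c + 1) * z) := fun z hz => by
      rw [pow_succ', mul_assoc]
      exact mx_t (mul_mem (pow_mem (t_mem P) _) hz)
    have l := r.lg (h.smul _) (y := π) (by omega) (by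
      have := mul_mem (e _ h3) (mem_ord (P := P) (x := P.t / π) (by
        rw [Pl.ord_div _ P.t_ne π0, P.ord_t, o, sub_self]))
      rwa [div_mul_div_cancel₀ P.t_ne] at this)
    refine ih fun x hx => ?_
    have := l.small (h.smul _) hS (fun s hs => e _ (h1 s hs)) (fun c => e _ (h2 c)) hx
    rwa [Mx, pow_succ', mul_assoc, mul_div_cancel_left₀ _ P.t_ne] at this

theorem ld_sub (h : De D) (r : Rg P D) {a b : K} (a0 : a ≠ 0) (b0 : b ≠ 0)
    (e : P.ord a = P.ord b) : D a / a - D b / b ∈ P.ring := by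
  obtain ⟨u, u1, u2, u3⟩ := ld_eq h P a0
  obtain ⟨v, v1, v2, v3⟩ := ld_eq h P b0
  rw [u3, v3, e, add_sub_add_right_eq_sub]
  exact sub_mem (mul_mem u2 (r u u1)) (mul_mem v2 (r v v1))

theorem mem_of_aj {Γ : BD K} {f : K} (h : Aj n Γ P f) (k : dsc n Γ P ≤ 0) : f ∈ P.ring := by
  rcases h with rfl | h
  · exact zero_mem _
  · have : ((-1 : ℤ) : ℝ) < P.ord f := by push_cast; linarith
    exact mem_ord (by have := Int.cast_lt.1 this; omega)

theorem core (hK : FF K (n + 1)) {N A Λ β : BD K} {u : Finset K} (hN : Smp N) (bN : Big N)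
    (klt : Klt (n + 1) (-N)) (bdy : Bdy n N (-N)) (on : On n N P) (bA : Big A) (dN : Dsc A N)
    (dΛ : Dsc A Λ) (hβ : Hull n A P.δ β) (u0 : Nz u) (e : mx u = Λ - β) (z : Λ P = 0) (h : De D)
    (r : ∀ π, P.ord π = 1 → D π ∈ P.ring → Rg P D) (l : ¬ Lg P D)
    (pr : ∀ a, Sec Λ a → Sec Λ (D a)) :
    ∃ f : K, P.ord f = -1 ∧ ∀ R, R ≠ P → On n N R → 0 ≤ R.ord f := by
  have sA := dN.smp
  have up : ∀ R, On n N R → On n A R := fun R => Pr.on_mono res' hK hN sA dN
  have b1 : β P = 1 := (hβ.2 P (up P on)).trans P.δ_self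
  have b0 : ∀ R, R ≠ P → On n A R → β R = 0 := fun R a b => (hβ.2 R b).trans (Pl.δ_ne a)
  have sc : ∀ a ∈ u, Sec Λ a := fun a ha => (sec_of_mem ha).mono (e ▸ sub_le_self _
    (Pr.hart res' hK sA bA hβ.1 fun R k => (hβ.2 R k).symm ▸ P.δ_nonneg R))
  let ι := {a // a ∈ u ∧ a ≠ 0}
  have : Finite ι := (u.finite_toSet.subset fun _ k => k.1).to_subtype
  have cv : ∀ R : Pl K, ∃ i : ι, (dv i.1 + mx u) R = 0 := fun R => by
    obtain ⟨a, h1, h2, h3⟩ := R.exists_mz u0
    exact ⟨⟨a, h1, h2⟩, by simp [dv_apply, mx_apply, h3]⟩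
  have ge : ∀ (i : ι) R, β R ≤ R.ord i.1 + Λ R := fun i R => by
    have := dv_add_mx_nonneg i.2.1 i.2.2 R
    simp only [e, Pi.add_apply, Pi.sub_apply, Pi.zero_apply, dv_apply] at this
    linarith
  have eq : ∀ (i : ι) R, (dv i.1 + mx u) R = 0 → (R.ord i.1 : ℝ) = β R - Λ R := fun i R k => by
    simp only [e, Pi.add_apply, Pi.sub_apply, dv_apply] at k
    linarith
  have dm : ∀ i : ι, D i.1 ∈ P.ring := fun i => by
    rcases pr _ (sc _ i.2.1) with k | k
    · exact k.symm ▸ zero_mem _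
    · have := k P
      rw [Pi.add_apply, z, add_zero, dv_apply] at this
      exact mem_ord (Int.cast_nonneg_iff.1 this)
  obtain ⟨i₀, h₀⟩ := cv P
  have o1 : ∀ i : ι, (dv i.1 + mx u) P = 0 → P.ord i.1 = 1 := fun i k => by
    have := eq i P k
    rw [b1, z, sub_zero] at this
    exact_mod_cast this
  have rg := r _ (o1 i₀ h₀) (dm i₀)
  have w : ∀ i j : ι, Sec ((Λ - β) + (Λ - β)) (j.1 * D i.1 - i.1 * D j.1) := fun i j => by
    refine or_iff_not_imp_left.2 fun w0 => Pr.hart res' hK sA bA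
      ((Dsc.dv sA _).add ((dΛ.sub hβ.1).add (dΛ.sub hβ.1))) fun R k => ?_
    by_cases p : R = P
    · subst p
      have m : ∀ i : ι, i.1 / R.t ∈ R.ring := fun i => mx_iff.2 (.inr (by
        have := ge i R
        rw [b1, z, add_zero] at this
        exact_mod_cast this))
      have q : (j.1 * D i.1 - i.1 * D j.1) / (R.t * R.t) =
          j.1 / R.t * D (i.1 / R.t) - i.1 / R.t * D (j.1 / R.t) := by
        have t0 := R.t_ne
        have a := h.mul R.t (i.1 / R.t)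
        have b := h.mul R.t (j.1 / R.t)
        rw [mul_div_cancel₀ _ t0] at a b
        rw [a, b]
        simp only [RingHom.id_apply]
        field_simp
        ring
      have := Pl.ord_nonneg_of_mem _ (q ▸ sub_mem (mul_mem (m j) (rg _ (m i)))
        (mul_mem (m i) (rg _ (m j))))
      rw [Pl.ord_div _ w0 (mul_ne_zero R.t_ne R.t_ne), Pl.ord_mul _ R.t_ne R.t_ne, R.ord_t] at this
      have c : ((2 : ℤ) : ℝ) ≤ R.ord (j.1 * D i.1 - i.1 * D j.1) := Int.cast_le.2 (by omega)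
      simp only [Pi.add_apply, Pi.sub_apply, b1, z, dv_apply]
      push_cast at c
      linarith
    · have := (mem_H0.1 (sub_mem (mem_H0.2 ((sc _ j.2.1).mul (pr _ (sc _ i.2.1))))
        (mem_H0.2 ((sc _ i.2.1).mul (pr _ (sc _ j.2.1)))))).resolve_left w0 R
      simpa [b0 R p k] using this
  obtain ⟨f, hf⟩ := Ku.ukv (n + 1) K hK (-N) ι (fun i => dv i.1 + mx u) (fun i => D i.1 / i.1)
    (by simpa using hN.nef) (by simpa using bN)
    (fun i => ⟨add_mem (dv_mem_Car _) (mx_mem_Car _), dv_add_mx_nonneg i.2.1 i.2.2⟩) cv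
    fun i j R a b => or_iff_not_imp_left.2 fun w0 => by
      have q : D i.1 / i.1 - D j.1 / j.1 = (j.1 * D i.1 - i.1 * D j.1) / (i.1 * j.1) := by
        rw [div_sub_div _ _ i.2.2 j.2.2, mul_comm]
      rw [q] at w0 ⊢
      have w1 := (div_ne_zero_iff.1 w0).1
      have := (w i j).resolve_left w1 R
      have k := klt R
      rw [Pl.ord_div _ w1 (mul_ne_zero i.2.2 j.2.2), Pl.ord_mul _ i.2.2 j.2.2]
      push_cast
      rw [eq i R a, eq j R b]
      simp only [Pi.add_apply, Pi.sub_apply, Pi.zero_apply, dv_apply] at this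
      linarith
  refine ⟨f, ?_, fun R p k => ?_⟩
  · have a := mem_of_aj (hf i₀ P h₀) (bdy P on)
    have b : D i₀.1 / i₀.1 ∉ P.ring := fun k => l (rg.lg h (by rw [o1 i₀ h₀]; omega) k)
    have c : f ∉ P.ring := fun k => b (by simpa using sub_mem k a)
    have f0 : f ≠ 0 := fun k => c (k ▸ zero_mem _)
    have d : f * i₀.1 ∈ P.ring := by
      have := add_mem (mul_mem a (mem_ord (by rw [o1 i₀ h₀]; omega) : i₀.1 ∈ P.ring)) (dm i₀)
      rwa [sub_mul, div_mul_cancel₀ _ i₀.2.2, sub_add_cancel] at this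
    have d' := Pl.ord_nonneg_of_mem _ d
    rw [Pl.ord_mul _ f0 i₀.2.2, o1 i₀ h₀] at d'
    have := mt mem_ord c
    omega
  · obtain ⟨i, hi⟩ := cv R
    have b : D i.1 / i.1 ∈ R.ring := by
      by_cases d0 : D i.1 = 0
      · simp [d0]
      · have := (pr _ (sc _ i.2.1)).resolve_left d0 R
        have c := eq i R hi
        rw [b0 R p (up R k)] at c
        refine mem_ord ?_
        rw [Pl.ord_div _ d0 i.2.2, ← Int.cast_le (R := ℝ)]
        simp only [Pi.add_apply, Pi.zero_apply, dv_apply] at this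
        push_cast
        linarith
    exact Pl.ord_nonneg_of_mem _ (by
      simpa using add_mem (mem_of_aj (hf i R hi) (bdy R k)) b)

/-- the sections are preserved -/
theorem pres {φ : K →+* K'} (h : Ext ⊥ φ) (hK : FF K (n + 1)) (hK' : FF K' (n + 1)) {β : BD K}
    (hβ : β ∈ Car K) {D : K' → K'} (d : De D) (c : Pc D) (z : ∀ a, D (φ a) = 0) {a : K'}
    (ha : Sec (pb φ β) a) : Sec (pb φ β) (D a) := by
  have := Ba.fin_isB hK (Ba.isB_car hK hβ)
  rw [← mem_H0, H0_pb h hK hK' hβ] at ha ⊢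
  suffices ∀ t : ℂ, D (t • a) ∈ Submodule.span ℂ (φ '' H0 β) by simpa using this 1
  induction ha using Submodule.span_induction with
  | mem x m =>
    intro t
    obtain ⟨t', e⟩ := c t
    obtain ⟨y, -, e'⟩ := id m
    rw [Algebra.smul_def, d.mul, ← e, ← e', z, mul_zero, zero_add, mul_comm, ← Algebra.smul_def]
    exact Submodule.smul_mem _ _ (Submodule.subset_span (e' ▸ m))
  | zero => simp [d.zero]
  | add x y _ _ p q => exact fun t => by rw [smul_add, d.add]; exact add_mem (p t) (q t)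
  | smul s x _ p => exact fun t => by rw [smul_smul]; exact p _

/-- **PEN** -/
theorem pen : Tg.PEN := by
  intro n K K' _ _ _ _ φ N P hK hK' hN bN klt bdy h t on
  obtain ⟨s, b, d, k⟩ := smo hK hN.car
  obtain ⟨Θ, i, -, e⟩ := ret_pb h hK hK' finite_empty ((finite_singleton N).insert (mx s))
    (insert_subset (mx_mem_Car s) (singleton_subset_iff.2 hN.car))
  have x : Ext ⊥ (Θ.comp φ) := Ext.comp (ext_bot_of_equiv i.e i.cst i.symm.cst) h
  have e1 : pb (Θ.comp φ) (mx s) = mx s := (i.ok.pb_comp _ _).trans (e _ (.inl rfl))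
  have e2 := e N (.inr rfl)
  have v := i.cf_pl In.hy hK' P fun _ => pb φ N
  have o : On n N (i.pl P) := e2 ▸ (i.on_pl In.hy hK').2 on
  have t' : Trv (Θ.comp φ) (i.pl P) := (i.lies P).comp_trv t
  obtain ⟨D, d1, d2, d3, d4⟩ := exists_der x hK hK t'
  obtain ⟨β, m, u, u0, hβ, e3⟩ := k _ (Pr.on_mono res' hK hN d.smp d o)
  have e4 : pb (Θ.comp φ) ((m : ℝ) • mx s) = (m : ℝ) • mx s := by rw [pb_smul, e1]
  have sp := Gm.spn_of_on res' (fun _ _ _ _ hK _ => (big_mx_iff hK).1) hK (x.ok hK) hN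
    (((i.ok.pb_comp _ _).trans e2).symm ▸ o)
  obtain ⟨f, hf⟩ := core hK hN bN klt bdy o b d ((Dsc.refl d.smp).smul m) hβ u0 e3
    (e4 ▸ t'.pb _) d1 (fun π => rg_pi hK d1 d2 ⟨inter_subset_right, fun a => Gm.mem_Cl.1 (sp a)⟩
      (by rintro _ ⟨⟨a, rfl⟩, -⟩; exact d3 a ▸ zero_mem _)) d4
    fun a ha => e4 ▸ pres x hK hK ((Car K).smul_mem _ (mx_mem_Car s)) d1 d2 d3 (e4.symm ▸ ha)
  exact ⟨i.pl P, f, o, by rw [e2] at v; exact v, hf⟩

end Vale.Agent.P287D.Pe
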